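import Vale.Agent.N130.Basic

/-!
# P130: approximation in the square by products of levels
-/

namespace Vale.Agent.N130

open MeasureTheory Filter Topology Set Vale.Agent.P130.H980
open scoped ENNReal symmDiff

variable {X : Type} [MeasurableSpace X] {μ : Measure X} {T : X ≃ᵐ X}

/-- Both marginals of `ρ` are at most `M μ`. -/
def Marg (μ : Measure X) (ρ : Measure (X × X)) (M : ℝ) : Prop :=
  ∀ s, MeasurableSet s → ρ.real (s ×ˢ univ) ≤ M * μ.real s ∧ ρ.real (univ ×ˢ s) ≤ M * μ.real s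

namespace Tow

variable (D : Tow μ T)

/-- The product of two levels. -/
def At (n : ℕ) (p : ℕ × ℕ) : Set (X × X) := lev T (D.B n) p.1 ×ˢ lev T (D.B n) p.2

/-- All pairs of heights. -/
def all (n : ℕ) : Finset (ℕ × ℕ) := Finset.range (D.h n) ×ˢ Finset.range (D.h n)

/-- A union of products of levels. -/
def U (n : ℕ) (F : Finset (ℕ × ℕ)) : Set (X × X) := ⋃ p ∈ F, D.At n p

theorem meas_At (n : ℕ) (p : ℕ × ℕ) : MeasurableSet (D.At n p) :=
  (meas_lev (D.meas n) _).prod (meas_lev (D.meas n) _)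

theorem meas_U (n : ℕ) (F : Finset (ℕ × ℕ)) : MeasurableSet (D.U n F) :=
  Finset.measurableSet_biUnion _ fun _ _ => D.meas_At n _

theorem mem_all {n : ℕ} {p : ℕ × ℕ} : p ∈ D.all n ↔ p.1 < D.h n ∧ p.2 < D.h n := by
  simp [all]

theorem disj_At {n : ℕ} {p q : ℕ × ℕ} (hp : p ∈ D.all n) (hq : q ∈ D.all n) (hpq : p ≠ q) :
    Disjoint (D.At n p) (D.At n q) := by
  rw [D.mem_all] at hp hq
  rw [Set.disjoint_left]
  rintro z ⟨h1, h2⟩ ⟨h3, h4⟩
  by_cases h : p.1 = q.1
  · have h' : p.2 ≠ q.2 := fun h' => hpq (Prod.ext h h')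
    exact Set.disjoint_left.1 (D.disj n _ hp.2 _ hq.2 h') h2 h4
  · exact Set.disjoint_left.1 (D.disj n _ hp.1 _ hq.1 h) h1 h3

theorem real_U (ρ : Measure (X × X)) [IsFiniteMeasure ρ] {n : ℕ} {F : Finset (ℕ × ℕ)}
    (hF : F ⊆ D.all n) : ρ.real (D.U n F) = ∑ p ∈ F, ρ.real (D.At n p) := by
  unfold U
  rw [measureReal_biUnion_finset]
  · intro p hp q hq hpq
    exact D.disj_At (hF hp) (hF hq) hpq
  · exact fun _ _ => D.meas_At n _

theorem U_prod (n : ℕ) (F G : Finset ℕ) : D.U n (F ×ˢ G) = D.V n F ×ˢ D.V n G := by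
  ext z
  simp only [U, V, At, mem_iUnion, Finset.mem_product, mem_prod, exists_prop, Prod.exists]
  constructor
  · rintro ⟨a, b, ⟨h1, h2⟩, h3, h4⟩
    exact ⟨⟨a, h1, h3⟩, b, h2, h4⟩
  · rintro ⟨⟨a, h1, h3⟩, b, h2, h4⟩
    exact ⟨a, b, ⟨h1, h2⟩, h3, h4⟩

/-- `E` is approximated by unions of products of levels. -/
def Ap (ρ : Measure (X × X)) (E : Set (X × X)) : Prop :=
  ∀ ε : ℝ, 0 < ε → ∀ᶠ n in atTop, ∃ F, F ⊆ D.all n ∧ ρ.real (E ∆ D.U n F) ≤ ε

omit [MeasurableSpace X] in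
theorem symmDiff_prod (A C A' C' : Set X) :
    (A ×ˢ C) ∆ (A' ×ˢ C') ⊆ (A ∆ A') ×ˢ univ ∪ univ ×ˢ (C ∆ C') := by
  rintro ⟨x, y⟩ h
  simp only [mem_symmDiff, mem_prod, mem_union, mem_univ, and_true, true_and] at h ⊢
  tauto

theorem real_prod_le {ρ : Measure (X × X)} [IsFiniteMeasure ρ] {M : ℝ} (hρ : Marg μ ρ M)
    {A C A' C' : Set X} (hA : MeasurableSet A) (hC : MeasurableSet C) (hA' : MeasurableSet A')
    (hC' : MeasurableSet C') :
    ρ.real ((A ×ˢ C) ∆ (A' ×ˢ C')) ≤ M * μ.real (A ∆ A') + M * μ.real (C ∆ C') := by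
  refine (measureReal_mono (symmDiff_prod A C A' C')).trans ((measureReal_union_le _ _).trans ?_)
  exact add_le_add (hρ _ (hA.symmDiff hA')).1 (hρ _ (hC.symmDiff hC')).2

theorem ap_prod {ρ : Measure (X × X)} [IsFiniteMeasure ρ] {M : ℝ} (hM : 0 ≤ M) (hρ : Marg μ ρ M)
    {A C : Set X} (hA : MeasurableSet A) (hC : MeasurableSet C) : D.Ap ρ (A ×ˢ C) := by
  intro ε hε
  have hδ : 0 < ε / (2 * (M + 1)) := by positivity
  filter_upwards [D.appr A hA _ hδ, D.appr C hC _ hδ] with n ⟨F, hF1, hF2⟩ ⟨G, hG1, hG2⟩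
  refine ⟨F ×ˢ G, Finset.product_subset_product hF1 hG1, ?_⟩
  rw [D.U_prod]
  refine (real_prod_le hρ hA hC (D.meas_V n F) (D.meas_V n G)).trans ?_
  have h1 : M * μ.real (A ∆ D.V n F) ≤ M * (ε / (2 * (M + 1))) := mul_le_mul_of_nonneg_left hF2 hM
  have h2 : M * μ.real (C ∆ D.V n G) ≤ M * (ε / (2 * (M + 1))) := mul_le_mul_of_nonneg_left hG2 hM
  have h3 : (M + 1) * (ε / (2 * (M + 1))) = ε / 2 := by field_simp
  nlinarith

theorem ap_union {ρ : Measure (X × X)} [IsFiniteMeasure ρ] {E E' : Set (X × X)} (h : D.Ap ρ E)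
    (h' : D.Ap ρ E') : D.Ap ρ (E ∪ E') := by
  intro ε hε
  filter_upwards [h _ (half_pos hε), h' _ (half_pos hε)] with n ⟨F, hF1, hF2⟩ ⟨G, hG1, hG2⟩
  refine ⟨F ∪ G, Finset.union_subset hF1 hG1, ?_⟩
  have e : D.U n (F ∪ G) = D.U n F ∪ D.U n G := Finset.set_biUnion_union F G _
  have h1 : (E ∪ E') ∆ (D.U n F ∪ D.U n G) ⊆ E ∆ D.U n F ∪ E' ∆ D.U n G := by
    intro z hz
    simp only [mem_symmDiff, mem_union] at hz ⊢
    tauto
  rw [e]
  refine (measureReal_mono h1).trans ((measureReal_union_le _ _).trans ?_)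
  linarith

theorem ap_compl {ρ : Measure (X × X)} [IsFiniteMeasure ρ] {E : Set (X × X)} (hu : D.Ap ρ univ)
    (h : D.Ap ρ E) : D.Ap ρ Eᶜ := by
  intro ε hε
  filter_upwards [h _ (half_pos hε), hu _ (half_pos hε)] with n ⟨F, hF1, hF2⟩ ⟨G, hG1, hG2⟩
  refine ⟨D.all n \ F, Finset.sdiff_subset, ?_⟩
  have h1 : Eᶜ ∆ D.U n (D.all n \ F) ⊆ E ∆ D.U n F ∪ univ ∆ D.U n G := by
    intro z hz
    by_cases hG : z ∈ D.U n G
    · left
      obtain ⟨p, hp, hz1⟩ := mem_iUnion₂.1 hG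
      have key : z ∈ D.U n (D.all n \ F) ↔ z ∉ D.U n F := by
        constructor
        · intro h2 h3
          obtain ⟨q, hq, hz2⟩ := mem_iUnion₂.1 h2
          obtain ⟨r, hr, hz3⟩ := mem_iUnion₂.1 h3
          rw [Finset.mem_sdiff] at hq
          have : q ≠ r := fun e => hq.2 (e ▸ hr)
          exact Set.disjoint_left.1 (D.disj_At hq.1 (hF1 hr) this) hz2 hz3
        · intro h2
          refine mem_iUnion₂.2 ⟨p, Finset.mem_sdiff.2 ⟨hG1 hp, fun h3 => h2 ?_⟩, hz1⟩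
          exact mem_iUnion₂.2 ⟨p, h3, hz1⟩
      simp only [mem_symmDiff, mem_compl_iff, key] at hz ⊢
      tauto
    · exact Or.inr (Or.inl ⟨mem_univ _, hG⟩)
  refine (measureReal_mono h1).trans ((measureReal_union_le _ _).trans ?_)
  linarith

theorem ap_empty {ρ : Measure (X × X)} : D.Ap ρ ∅ := by
  intro ε hε
  refine Eventually.of_forall fun n => ⟨∅, Finset.empty_subset _, ?_⟩
  simp [U, hε.le]

/-- **Approximation in the square.** -/
theorem ap_all {ρ : Measure (X × X)} [IsFiniteMeasure ρ] {M : ℝ} (hM : 0 ≤ M) (hρ : Marg μ ρ M)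
    {E : Set (X × X)} (hE : MeasurableSet E) : D.Ap ρ E := by
  have hu : D.Ap ρ univ := by
    rw [← univ_prod_univ]
    exact D.ap_prod hM hρ MeasurableSet.univ MeasurableSet.univ
  refine MeasurableSpace.induction_on_inter (C := fun s _ => D.Ap ρ s) generateFrom_prod.symm
    isPiSystem_prod D.ap_empty ?_ (fun t _ h => D.ap_compl hu h) ?_ E hE
  · rintro _ ⟨A, hA, C, hC, rfl⟩
    exact D.ap_prod hM hρ hA hC
  · intro f _ hf ih ε hε
    have hfin : ∀ N : ℕ, D.Ap ρ (accumulate f N) := by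
      intro N
      induction N with
      | zero => simpa using ih 0
      | succ N ihN =>
        rw [accumulate_succ]
        exact D.ap_union ihN (ih _)
    have hacc : ∀ N, MeasurableSet (accumulate f N) := by
      intro N
      induction N with
      | zero => simpa using hf 0
      | succ N ihN =>
        rw [accumulate_succ]
        exact ihN.union (hf _)
    have h1 := (ENNReal.tendsto_toReal (a := ρ (⋃ i, f i)) (by finiteness)).comp
      (tendsto_measure_iUnion_accumulate (μ := ρ) (f := f))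
    obtain ⟨N, hN⟩ := Metric.tendsto_atTop.1 h1 _ (half_pos hε)
    have h2 := hN N le_rfl
    rw [Real.dist_eq] at h2
    have h3 : ρ.real ((⋃ i, f i) \ accumulate f N) ≤ ε / 2 := by
      rw [measureReal_sdiff (accumulate_subset_iUnion N) (hacc N)]
      have := (abs_lt.1 h2).1
      simp only [Function.comp_apply] at this
      simp only [measureReal_def]
      linarith
    filter_upwards [hfin N _ (half_pos hε)] with n ⟨F, hF1, hF2⟩
    refine ⟨F, hF1, ?_⟩
    have h4 : (⋃ i, f i) ∆ D.U n F ⊆ ((⋃ i, f i) \ accumulate f N) ∪ accumulate f N ∆ D.U n F := by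
      intro z hz
      have h5 : z ∈ accumulate f N → z ∈ ⋃ i, f i := fun h => accumulate_subset_iUnion N h
      simp only [mem_symmDiff, mem_union, Set.mem_sdiff] at hz ⊢
      tauto
    refine (measureReal_mono h4).trans ((measureReal_union_le _ _).trans ?_)
    linarith

end Tow

end Vale.Agent.N130
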