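import Vale.Agent.P130.H980.Final

/-!
# P130: mixing in both directions, small sets, rank one towers
-/

namespace Vale.Agent.N130

open MeasureTheory Filter Topology Set Vale.Agent.P130.H980
open scoped ENNReal symmDiff

variable {X : Type} [MeasurableSpace X] {μ : Measure X} {T : X ≃ᵐ X}

theorem zp_one (T : X ≃ᵐ X) (x : X) : zp T 1 x = T x := congrFun (zp_nat T 1) x

theorem zp_neg_zp (T : X ≃ᵐ X) (k : ℤ) (x : X) : zp T (-k) (zp T k x) = x := by
  rw [← zp_add, neg_add_cancel, zp_zero]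
  rfl

theorem zp_zp_neg (T : X ≃ᵐ X) (k : ℤ) (x : X) : zp T k (zp T (-k) x) = x := by
  rw [← zp_add, add_neg_cancel, zp_zero]
  rfl

theorem zp_comm (T : X ≃ᵐ X) (j k : ℤ) (x : X) : zp T j (zp T k x) = zp T k (zp T j x) := by
  rw [← zp_add, ← zp_add, add_comm]

theorem zp_inj (T : X ≃ᵐ X) (k : ℤ) : Function.Injective (zp T k) :=
  Function.LeftInverse.injective (zp_neg_zp T k)

theorem zp_iterate (T : X ≃ᵐ X) (i : ℕ) (x : X) : zp T i x = T^[i] x := by
  induction i with
  | zero => exact congrFun (zp_zero T) x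
  | succ i ih =>
    rw [Function.iterate_succ_apply', ← ih, ← zp_one, ← zp_add]
    congr 1
    push_cast
    ring

theorem real_le_symmDiff {Y : Type} [MeasurableSpace Y] (ρ : Measure Y) [IsFiniteMeasure ρ]
    (s t : Set Y) : ρ.real s ≤ ρ.real t + ρ.real (s ∆ t) := by
  refine le_trans (measureReal_mono ?_) (measureReal_union_le _ _)
  intro x hx
  by_cases h : x ∈ t
  · exact Or.inl h
  · exact Or.inr (Or.inl ⟨hx, h⟩)

theorem real_le_symmDiff' {Y : Type} [MeasurableSpace Y] (ρ : Measure Y) [IsFiniteMeasure ρ]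
    (s t : Set Y) : ρ.real t ≤ ρ.real s + ρ.real (s ∆ t) := by
  rw [symmDiff_comm]
  exact real_le_symmDiff ρ t s

theorem real_pre {Y : Type} [MeasurableSpace Y] {ρ : Measure Y} {f : Y → Y}
    (hf : MeasurePreserving f ρ ρ) {s : Set Y} (hs : MeasurableSet s) :
    ρ.real (f ⁻¹' s) = ρ.real s := by
  rw [measureReal_def, measureReal_def, hf.measure_preimage hs.nullMeasurableSet]

section mixing

variable [IsProbabilityMeasure μ]

/-- Mixing in both directions. -/
theorem mix2 (hT : MeasurePreserving T μ μ) (hm : IsStronglyMixing μ T) {A C : Set X}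
    (hA : MeasurableSet A) (hC : MeasurableSet C) {ε : ℝ} (hε : 0 < ε) :
    ∃ K : ℕ, ∀ k : ℤ, K ≤ k.natAbs →
      |μ.real (A ∩ zp T k ⁻¹' C) - μ.real A * μ.real C| ≤ ε := by
  have key : ∀ {A C : Set X}, MeasurableSet A → MeasurableSet C → ∃ K : ℕ, ∀ n : ℕ, K ≤ n →
      |μ.real (A ∩ zp T n ⁻¹' C) - μ.real A * μ.real C| ≤ ε := by
    intro A C hA hC
    have h1 := (ENNReal.tendsto_toReal (a := μ A * μ C) (by finiteness)).comp (hm A C hA hC)
    rw [ENNReal.toReal_mul] at h1
    obtain ⟨K, hK⟩ := Metric.tendsto_atTop.1 h1 ε hε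
    refine ⟨K, fun n hn => ?_⟩
    have := hK n hn
    rw [Real.dist_eq] at this
    rw [zp_nat]
    exact this.le
  obtain ⟨K1, h1⟩ := key hA hC
  obtain ⟨K2, h2⟩ := key hC hA
  refine ⟨max K1 K2, fun k hk => ?_⟩
  obtain ⟨n, rfl | rfl⟩ := k.eq_nat_or_neg
  · exact h1 n (by simp at hk; omega)
  · have e : μ.real (A ∩ zp T (-(n : ℤ)) ⁻¹' C) = μ.real (C ∩ zp T n ⁻¹' A) := by
      rw [← real_pre (mp_zp hT n) (hA.inter (meas_zp T _ hC))]
      congr 1
      ext x
      simp only [mem_preimage, mem_inter_iff, zp_neg_zp]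
      exact and_comm
    rw [e, mul_comm]
    exact h2 n (by simp at hk; omega)

/-- A set that is almost invariant under a nonzero power of `T` is trivial. -/
theorem triv (hT : MeasurePreserving T μ μ) (hm : IsStronglyMixing μ T) {m : ℤ} (hm0 : m ≠ 0)
    {A : Set X} (hA : MeasurableSet A) (h : μ (A ∩ zp T m ⁻¹' Aᶜ) = 0) : μ A = 0 ∨ μ Aᶜ = 0 := by
  have h1 : ∀ j : ℕ, μ (A ∩ zp T (m * (j + 1)) ⁻¹' Aᶜ) = 0 := by
    intro j
    induction j with
    | zero => simpa using h
    | succ j ih =>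
      have h2 : μ (zp T m ⁻¹' (A ∩ zp T (m * (j + 1)) ⁻¹' Aᶜ)) = 0 := by
        rw [(mp_zp hT m).measure_preimage (hA.inter (meas_zp T _ hA.compl)).nullMeasurableSet]
        exact ih
      refine measure_mono_null ?_ (measure_union_null h h2)
      rintro x ⟨hx1, hx2⟩
      by_cases h3 : zp T m x ∈ A
      · refine Or.inr ⟨h3, ?_⟩
        have e : zp T (m * (j + 1)) (zp T m x) = zp T (m * ((j + 1 : ℕ) + 1)) x := by
          rw [← zp_add]
          congr 1
          push_cast
          ring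
        show zp T (m * (j + 1)) (zp T m x) ∈ Aᶜ
        rw [e]
        exact hx2
      · exact Or.inl ⟨hx1, h3⟩
  have h2 : μ.real A * μ.real Aᶜ = 0 := by
    refine le_antisymm (le_of_forall_pos_le_add fun ε hε => ?_) (by positivity)
    obtain ⟨K, hK⟩ := mix2 hT hm hA hA.compl hε
    have h3 := hK (m * (K + 1)) (by
      rw [Int.natAbs_mul]
      have h4 : 1 ≤ m.natAbs := Int.natAbs_pos.2 hm0
      have h5 : ((K : ℤ) + 1).natAbs = K + 1 := by omega
      rw [h5]
      nlinarith)
    rw [measureReal_def μ (A ∩ _), h1 K] at h3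
    have := (abs_le.1 h3).1
    simp only [ENNReal.toReal_zero] at this
    linarith
  rcases mul_eq_zero.1 h2 with h3 | h3
  · exact Or.inl ((measureReal_eq_zero_iff).1 h3)
  · exact Or.inr ((measureReal_eq_zero_iff).1 h3)

/-- The nonzero powers of `T` are ergodic. -/
theorem erg (hT : MeasurePreserving T μ μ) (hm : IsStronglyMixing μ T) {m : ℤ} (hm0 : m ≠ 0) :
    Ergodic (zp T m) μ := by
  refine ⟨mp_zp hT m, ⟨fun A hA hinv => ?_⟩⟩
  have h : μ (A ∩ zp T m ⁻¹' Aᶜ) = 0 := by
    rw [preimage_compl, hinv, inter_compl_self, measure_empty]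
  rw [eventuallyConst_set']
  rcases triv hT hm hm0 hA h with h1 | h1
  · exact Or.inl (ae_eq_empty.2 h1)
  · exact Or.inr (ae_eq_univ.2 h1)

theorem exists_mid [StandardBorelSpace X] (hna : ∀ x, μ {x} = 0) :
    ∃ A, MeasurableSet A ∧ 0 < μ.real A ∧ μ.real A < 1 := by
  by_contra hc
  push Not at hc
  have : IsZeroOneMeasure μ := ⟨fun s hs => by
    by_cases h : μ s = 0
    · exact Or.inl h
    · right
      have h1 : 0 < μ.real s := ENNReal.toReal_pos h (by finiteness)
      have h2 := hc s hs h1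
      refine le_antisymm prob_le_one ?_
      rw [measureReal_def] at h2
      exact (ENNReal.toReal_le_toReal (by simp) (by finiteness)).1 (by simpa using h2)⟩
  obtain ⟨x, hx⟩ := IsZeroOneMeasure.exists_eq_dirac (μ := μ)
  have := hna x
  rw [hx] at this
  simp at this

/-- Sets of arbitrarily small positive measure. -/
theorem small [StandardBorelSpace X] (hna : ∀ x, μ {x} = 0) (hT : MeasurePreserving T μ μ)
    (hm : IsStronglyMixing μ T) {c : ℝ} (hc : 0 < c) :
    ∃ A, MeasurableSet A ∧ 0 < μ.real A ∧ μ.real A ≤ c := by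
  obtain ⟨A0, hA0, h0, h1⟩ := exists_mid hna
  set a := μ.real A0 with ha
  have key : ∀ n : ℕ, ∃ A, MeasurableSet A ∧ 0 < μ.real A ∧ μ.real A ≤ ((1 + a) / 2) ^ n := by
    intro n
    induction n with
    | zero => exact ⟨univ, MeasurableSet.univ, by simp, by simp⟩
    | succ n ih =>
      obtain ⟨A, hA, h2, h3⟩ := ih
      have hε : 0 < μ.real A * a * (1 - a) / 2 := by
        have : 0 < 1 - a := by linarith
        positivity
      obtain ⟨K, hK⟩ := mix2 hT hm hA hA0 hε
      have h4 := abs_le.1 (hK K (by simp))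
      refine ⟨A ∩ zp T K ⁻¹' A0, hA.inter (meas_zp T _ hA0), ?_, ?_⟩
      · have h5 : 0 < μ.real A * a := by positivity
        nlinarith [h4.1]
      · have h5 : μ.real (A ∩ zp T K ⁻¹' A0) ≤ μ.real A * ((1 + a) / 2) := by
          have h6 : 0 ≤ μ.real A * (1 - a) * (1 - a) := by
            have : 0 < 1 - a := by linarith
            positivity
          nlinarith [h4.2]
        rw [pow_succ]
        exact h5.trans (mul_le_mul_of_nonneg_right h3 (by linarith))
  obtain ⟨n, hn⟩ := exists_pow_lt_of_lt_one hc (show (1 + a) / 2 < 1 by linarith)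
  obtain ⟨A, hA, h2, h3⟩ := key n
  exact ⟨A, hA, h2, h3.trans hn.le⟩

/-- `T` is aperiodic. -/
theorem aper [StandardBorelSpace X] (hna : ∀ x, μ {x} = 0) (hT : MeasurePreserving T μ μ)
    (hm : IsStronglyMixing μ T) {m : ℤ} (hm0 : m ≠ 0) : μ {x | zp T m x = x} = 0 := by
  have hP : MeasurableSet {x | zp T m x = x} := measurableSet_eq_fun (meas_zp T m) measurable_id
  have h1 : μ ({x | zp T m x = x} ∩ zp T 1 ⁻¹' {x | zp T m x = x}ᶜ) = 0 := by
    have : {x | zp T m x = x} ∩ zp T 1 ⁻¹' {x | zp T m x = x}ᶜ = ∅ := by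
      refine eq_empty_of_forall_notMem ?_
      rintro x ⟨hx1, hx2⟩
      apply hx2
      show zp T m (zp T 1 x) = zp T 1 x
      rw [zp_comm, show zp T m x = x from hx1]
    rw [this, measure_empty]
  rcases triv hT hm one_ne_zero hP h1 with h2 | h2
  · exact h2
  · exfalso
    obtain ⟨A, hA, h0, h3⟩ := exists_mid hna
    have h4 : μ (A ∩ zp T m ⁻¹' Aᶜ) = 0 := by
      refine measure_mono_null ?_ h2
      rintro x ⟨hx1, hx2⟩ hx3
      apply hx2
      show zp T m x ∈ A
      rw [show zp T m x = x from hx3]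
      exact hx1
    rcases triv hT hm hm0 hA h4 with h5 | h5
    · rw [measureReal_def, h5] at h0
      simp at h0
    · have h6 := measureReal_add_measureReal_compl (μ := μ) hA
      rw [measureReal_def μ Aᶜ, h5] at h6
      simp at h6
      linarith

end mixing

/-- The level `T ^ i B`. -/
def lev (T : X ≃ᵐ X) (B : Set X) (i : ℤ) : Set X := zp T (-i) ⁻¹' B

theorem mem_lev {B : Set X} {i : ℤ} {x : X} : x ∈ lev T B i ↔ zp T (-i) x ∈ B := Iff.rfl

theorem meas_lev {B : Set X} (hB : MeasurableSet B) (i : ℤ) : MeasurableSet (lev T B i) :=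
  meas_zp T _ hB

theorem real_lev (hT : MeasurePreserving T μ μ) {B : Set X} (hB : MeasurableSet B) (i : ℤ) :
    μ.real (lev T B i) = μ.real B := real_pre (mp_zp hT _) hB

theorem lev_zero (B : Set X) : lev T B 0 = B := by
  unfold lev
  rw [neg_zero, zp_zero]
  rfl

theorem pre_lev (B : Set X) (i k : ℤ) : zp T k ⁻¹' lev T B i = lev T B (i - k) := by
  ext x
  simp only [mem_preimage, mem_lev]
  rw [← zp_add]
  congr! 2
  ring

theorem image_lev (B : Set X) (i : ℕ) : T^[i] '' B = lev T B i := by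
  ext x
  constructor
  · rintro ⟨y, hy, rfl⟩
    rw [mem_lev, ← zp_iterate, zp_neg_zp]
    exact hy
  · intro hx
    exact ⟨_, hx, by rw [← zp_iterate, zp_zp_neg]⟩

/-- A sequence of towers that approximates all measurable sets. -/
structure Tow (μ : Measure X) (T : X ≃ᵐ X) where
  h : ℕ → ℕ
  B : ℕ → Set X
  meas : ∀ n, MeasurableSet (B n)
  disj : ∀ n, ∀ i < h n, ∀ j < h n, i ≠ j → Disjoint (lev T (B n) i) (lev T (B n) j)
  appr : ∀ A, MeasurableSet A → ∀ ε : ℝ, 0 < ε → ∀ᶠ n in atTop, ∃ F : Finset ℕ,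
    F ⊆ Finset.range (h n) ∧ μ.real (A ∆ ⋃ i ∈ F, lev T (B n) (i : ℕ)) ≤ ε

theorem exists_tow (hr : IsRankOneMap μ T) : Nonempty (Tow μ T) := by
  obtain ⟨h, B, h1, h2, h3⟩ := hr
  refine ⟨⟨h, B, h1, fun n i hi j hj hij => ?_, fun A hA ε hε => ?_⟩⟩
  · rw [← image_lev, ← image_lev]
    exact h2 n i hi j hj hij
  · obtain ⟨N, hN⟩ := h3 A hA (ENNReal.ofReal ε) (by simpa using hε)
    filter_upwards [eventually_ge_atTop N] with n hn
    obtain ⟨F, hF1, hF2⟩ := hN n hn
    refine ⟨F, fun i hi => Finset.mem_range.2 (hF1 i hi), ?_⟩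
    simp only [image_lev] at hF2
    exact ENNReal.toReal_le_of_le_ofReal hε.le hF2

namespace Tow

variable (D : Tow μ T)

/-- A union of levels. -/
def V (n : ℕ) (F : Finset ℕ) : Set X := ⋃ i ∈ F, lev T (D.B n) (i : ℕ)

theorem meas_V (n : ℕ) (F : Finset ℕ) : MeasurableSet (D.V n F) :=
  Finset.measurableSet_biUnion _ fun _ _ => meas_lev (D.meas n) _

theorem real_V [IsFiniteMeasure μ] (hT : MeasurePreserving T μ μ) {n : ℕ} {F : Finset ℕ}
    (hF : F ⊆ Finset.range (D.h n)) : μ.real (D.V n F) = F.card * μ.real (D.B n) := by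
  unfold V
  rw [measureReal_biUnion_finset]
  · simp only [real_lev hT (D.meas n), Finset.sum_const, nsmul_eq_mul]
  · intro i hi j hj hij
    exact D.disj n i (Finset.mem_range.1 (hF hi)) j (Finset.mem_range.1 (hF hj)) hij
  · exact fun _ _ => meas_lev (D.meas n) _

variable [IsProbabilityMeasure μ]

theorem h_mul_le (hT : MeasurePreserving T μ μ) (n : ℕ) : D.h n * μ.real (D.B n) ≤ 1 := by
  have := D.real_V hT (n := n) (F := Finset.range (D.h n)) subset_rfl
  rw [Finset.card_range] at this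
  rw [← this]
  exact measureReal_le_one

theorem pos (hT : MeasurePreserving T μ μ) : ∀ᶠ n in atTop, 0 < μ.real (D.B n) := by
  filter_upwards [D.appr univ MeasurableSet.univ (1 / 2) (by norm_num)] with n ⟨F, hF1, hF2⟩
  have h1 := real_le_symmDiff μ univ (D.V n F)
  rw [D.real_V hT hF1, probReal_univ] at h1
  have h2 : μ.real (univ ∆ D.V n F) ≤ 1 / 2 := hF2
  refine lt_of_le_of_ne measureReal_nonneg fun h => ?_
  rw [← h] at h1
  linarith

theorem base_small [StandardBorelSpace X] (hna : ∀ x, μ {x} = 0) (hT : MeasurePreserving T μ μ)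
    (hm : IsStronglyMixing μ T) {c : ℝ} (hc : 0 < c) : ∀ᶠ n in atTop, μ.real (D.B n) ≤ c := by
  obtain ⟨A, hA, h0, h1⟩ := small hna hT hm (half_pos hc)
  filter_upwards [D.appr A hA (μ.real A / 2) (half_pos h0)] with n ⟨F, hF1, hF2⟩
  have h2 : μ.real (A ∆ D.V n F) ≤ μ.real A / 2 := hF2
  have h3 := real_le_symmDiff μ A (D.V n F)
  have h4 := real_le_symmDiff' μ A (D.V n F)
  rw [D.real_V hT hF1] at h3 h4
  have h5 : 1 ≤ F.card := by
    by_contra h
    have : F.card = 0 := by omega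
    rw [this] at h3
    simp at h3
    linarith
  have h6 : (1 : ℝ) ≤ F.card := by exact_mod_cast h5
  have h7 : 0 ≤ μ.real (D.B n) := measureReal_nonneg
  nlinarith

end Tow

end Vale.Agent.N130
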