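import Vale.Agent.N130.Approx

/-!
# P130: the dichotomy for invariant measures on the square of a mixing rank one map
-/

namespace Vale.Agent.N130

open MeasureTheory Filter Topology Set Vale.Agent.P130.H980
open scoped ENNReal symmDiff

variable {X : Type} [MeasurableSpace X] {μ : Measure X} {T : X ≃ᵐ X}

/-- The off-diagonal measure on the graph of `T ^ k`. -/
noncomputable def gr (μ : Measure X) (T : X ≃ᵐ X) (k : ℤ) : Measure (X × X) :=
  μ.map fun x => (x, zp T k x)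

theorem meas_gr (T : X ≃ᵐ X) (k : ℤ) : Measurable fun x => (x, zp T k x) :=
  measurable_id.prodMk (meas_zp T k)

theorem gr_apply (k : ℤ) {E : Set (X × X)} (hE : MeasurableSet E) :
    gr μ T k E = μ ((fun x => (x, zp T k x)) ⁻¹' E) := Measure.map_apply (meas_gr T k) hE

theorem gr_real (k : ℤ) {E : Set (X × X)} (hE : MeasurableSet E) :
    (gr μ T k).real E = μ.real ((fun x => (x, zp T k x)) ⁻¹' E) := by
  rw [measureReal_def, measureReal_def, gr_apply k hE]

theorem gr_prod (k : ℤ) {A C : Set X} (hA : MeasurableSet A) (hC : MeasurableSet C) :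
    (gr μ T k).real (A ×ˢ C) = μ.real (A ∩ zp T k ⁻¹' C) := by
  rw [gr_real k (hA.prod hC)]
  rfl

instance gr_prob [IsProbabilityMeasure μ] (k : ℤ) : IsProbabilityMeasure (gr μ T k) :=
  Measure.isProbabilityMeasure_map (meas_gr T k).aemeasurable

theorem marg_gr (hT : MeasurePreserving T μ μ) (k : ℤ) : Marg μ (gr μ T k) 1 := by
  intro s hs
  rw [gr_prod k hs MeasurableSet.univ, gr_prod k MeasurableSet.univ hs, preimage_univ, inter_univ,
    univ_inter, real_pre (mp_zp hT k) hs, one_mul]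
  exact ⟨le_rfl, le_rfl⟩

theorem marg_prod [IsProbabilityMeasure μ] : Marg μ (μ.prod μ) 1 := by
  intro s _
  simp [measureReal_def]

theorem Marg.add {ρ σ : Measure (X × X)} [IsFiniteMeasure ρ] [IsFiniteMeasure σ] {M N : ℝ}
    (h1 : Marg μ ρ M) (h2 : Marg μ σ N) : Marg μ (ρ + σ) (M + N) := by
  intro s hs
  rw [measureReal_add_apply, measureReal_add_apply, add_mul]
  exact ⟨add_le_add (h1 s hs).1 (h2 s hs).1, add_le_add (h1 s hs).2 (h2 s hs).2⟩

theorem real_lev_prod {ν : Measure (X × X)} (hν : MeasurePreserving (sq T) ν ν) {B : Set X}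
    (hB : MeasurableSet B) (a b : ℤ) :
    ν.real (lev T B a ×ˢ lev T B b) = ν.real (B ×ˢ lev T B (b - a)) := by
  rw [← real_pre (mp_zp hν a) ((meas_lev hB a).prod (meas_lev hB b))]
  congr 1
  ext z
  have h1 := Set.ext_iff.1 (pre_lev (T := T) B a a) z.1
  have h2 := Set.ext_iff.1 (pre_lev (T := T) B b a) z.2
  rw [sub_self, lev_zero] at h1
  rw [mem_preimage, zp_sq]
  exact and_congr h1 h2

namespace Tow

variable (D : Tow μ T)

/-- The number of pairs with difference `k`. -/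
def N (F : Finset (ℕ × ℕ)) (k : ℤ) : ℕ := (F.filter fun p => (p.2 : ℤ) - p.1 = k).card

/-- The weight of the diagonal `k`. -/
noncomputable def w (ν : Measure (X × X)) (n : ℕ) (k : ℤ) : ℝ := ν.real (D.B n ×ˢ lev T (D.B n) k)

theorem w_nonneg (ν : Measure (X × X)) (n : ℕ) (k : ℤ) : 0 ≤ D.w ν n k := measureReal_nonneg

theorem real_At {ν : Measure (X × X)} (hν : MeasurePreserving (sq T) ν ν) (n : ℕ) (p : ℕ × ℕ) :
    ν.real (D.At n p) = D.w ν n ((p.2 : ℤ) - p.1) := real_lev_prod hν (D.meas n) _ _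

theorem real_U_eq {ν : Measure (X × X)} [IsFiniteMeasure ν] (hν : MeasurePreserving (sq T) ν ν)
    {n : ℕ} {F : Finset (ℕ × ℕ)} (hF : F ⊆ D.all n) :
    ν.real (D.U n F) = ∑ k ∈ Finset.Ioo (-(D.h n : ℤ)) (D.h n), N F k * D.w ν n k := by
  rw [D.real_U ν hF, ← Finset.sum_fiberwise_of_maps_to (g := fun p : ℕ × ℕ => (p.2 : ℤ) - p.1)
    (t := Finset.Ioo (-(D.h n : ℤ)) (D.h n))]
  · refine Finset.sum_congr rfl fun k _ => ?_
    rw [N, ← nsmul_eq_mul, ← Finset.sum_const]
    refine Finset.sum_congr rfl fun p hp => ?_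
    rw [D.real_At hν, (Finset.mem_filter.1 hp).2]
  · intro p hp
    have := D.mem_all.1 (hF hp)
    rw [Finset.mem_Ioo]
    omega

theorem real_U_ge {ν : Measure (X × X)} [IsFiniteMeasure ν] (hν : MeasurePreserving (sq T) ν ν)
    {n : ℕ} {F : Finset (ℕ × ℕ)} (hF : F ⊆ D.all n) (k : ℤ) :
    N F k * D.w ν n k ≤ ν.real (D.U n F) := by
  rw [D.real_U ν hF, N, ← nsmul_eq_mul, ← Finset.sum_const]
  refine le_trans (le_of_eq ?_) (Finset.sum_le_sum_of_subset_of_nonneg
    (Finset.filter_subset (fun p : ℕ × ℕ => (p.2 : ℤ) - p.1 = k) F)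
    fun _ _ _ => measureReal_nonneg)
  refine Finset.sum_congr rfl fun p hp => ?_
  rw [D.real_At hν, (Finset.mem_filter.1 hp).2]

theorem sum_w {ν : Measure (X × X)} [IsFiniteMeasure ν] (hν : MeasurePreserving (sq T) ν ν)
    {M : ℝ} (hM : Marg μ ν M) (n : ℕ) :
    ∑ k ∈ Finset.Ioo (-(D.h n : ℤ)) (D.h n), D.w ν n k ≤ 2 * M * μ.real (D.B n) := by
  have h1 : ∑ i ∈ Finset.range (D.h n), D.w ν n i ≤ M * μ.real (D.B n) := by
    refine le_trans ?_ (hM _ (D.meas n)).1
    unfold w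
    rw [← measureReal_biUnion_finset]
    · refine measureReal_mono (iUnion₂_subset fun i _ => prod_mono subset_rfl (subset_univ _))
    · intro i hi j hj hij
      refine Set.disjoint_left.2 fun z h1 h2 => ?_
      exact Set.disjoint_left.1 (D.disj n i (Finset.mem_range.1 hi) j (Finset.mem_range.1 hj) hij)
        h1.2 h2.2
    · exact fun _ _ => (D.meas n).prod (meas_lev (D.meas n) _)
  have h2 : ∑ i ∈ Finset.range (D.h n), D.w ν n (-(i : ℤ)) ≤ M * μ.real (D.B n) := by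
    refine le_trans ?_ (hM _ (D.meas n)).2
    have e : ∀ i : ℕ, D.w ν n (-(i : ℤ)) = ν.real (lev T (D.B n) i ×ˢ D.B n) := by
      intro i
      have := real_lev_prod hν (D.meas n) i 0
      rw [lev_zero, zero_sub] at this
      exact this.symm
    simp only [e]
    rw [← measureReal_biUnion_finset]
    · refine measureReal_mono (iUnion₂_subset fun i _ => prod_mono (subset_univ _) subset_rfl)
    · intro i hi j hj hij
      refine Set.disjoint_left.2 fun z h1 h2 => ?_
      exact Set.disjoint_left.1 (D.disj n i (Finset.mem_range.1 hi) j (Finset.mem_range.1 hj) hij)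
        h1.1 h2.1
    · exact fun _ _ => (meas_lev (D.meas n) _).prod (D.meas n)
  have h3 : Finset.Ioo (-(D.h n : ℤ)) (D.h n) ⊆ (Finset.range (D.h n)).image (fun i : ℕ => (i : ℤ)) ∪
      (Finset.range (D.h n)).image (fun i : ℕ => -(i : ℤ)) := by
    intro k hk
    rw [Finset.mem_Ioo] at hk
    simp only [Finset.mem_union, Finset.mem_image, Finset.mem_range]
    obtain ⟨i, rfl | rfl⟩ := k.eq_nat_or_neg
    · exact Or.inl ⟨i, by omega, rfl⟩
    · exact Or.inr ⟨i, by omega, rfl⟩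
  refine (Finset.sum_le_sum_of_subset_of_nonneg h3 fun _ _ _ => D.w_nonneg ν n _).trans ?_
  have h4 := Finset.sum_union_inter (s₁ := (Finset.range (D.h n)).image (fun i : ℕ => (i : ℤ)))
    (s₂ := (Finset.range (D.h n)).image (fun i : ℕ => -(i : ℤ))) (f := D.w ν n)
  rw [Finset.sum_image (fun a _ b _ h => by simpa using h),
    Finset.sum_image (fun a _ b _ h => by simpa using h)] at h4
  have h5 : 0 ≤ ∑ k ∈ (Finset.range (D.h n)).image (fun i : ℕ => (i : ℤ)) ∩
      (Finset.range (D.h n)).image (fun i : ℕ => -(i : ℤ)), D.w ν n k :=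
    Finset.sum_nonneg fun _ _ => D.w_nonneg ν n _
  linarith

variable [IsProbabilityMeasure μ]

theorem gr_lower (hT : MeasurePreserving T μ μ) {n : ℕ} {F : Finset (ℕ × ℕ)} (hF : F ⊆ D.all n)
    (k : ℤ) : N F k * μ.real (D.B n) ≤ (gr μ T k).real (D.U n F) := by
  rw [D.real_U _ hF, N, ← nsmul_eq_mul, ← Finset.sum_const]
  refine le_trans (le_of_eq ?_) (Finset.sum_le_sum_of_subset_of_nonneg
    (Finset.filter_subset (fun p : ℕ × ℕ => (p.2 : ℤ) - p.1 = k) F)
    fun _ _ _ => measureReal_nonneg)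
  refine Finset.sum_congr rfl fun p hp => ?_
  have h1 : (p.2 : ℤ) - k = p.1 := by
    have := (Finset.mem_filter.1 hp).2
    omega
  rw [At, gr_prod k (meas_lev (D.meas n) _) (meas_lev (D.meas n) _), pre_lev, h1, inter_self,
    real_lev hT (D.meas n)]

theorem gr_upper (hT : MeasurePreserving T μ μ) {n : ℕ} {F : Finset (ℕ × ℕ)} (hF : F ⊆ D.all n)
    (k : ℤ) : (gr μ T k).real (D.U n F) ≤ N F k * μ.real (D.B n) + k.natAbs * μ.real (D.B n) := by
  set bad : Finset ℕ := Finset.range k.toNat ∪ Finset.Ico (D.h n - (-k).toNat) (D.h n) with hbad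
  have hc : bad.card ≤ k.natAbs := by
    refine (Finset.card_union_le _ _).trans ?_
    rw [Finset.card_range, Nat.card_Ico]
    omega
  have h1 : (fun x => (x, zp T k x)) ⁻¹' D.U n F ⊆
      (⋃ p ∈ F.filter (fun p : ℕ × ℕ => (p.2 : ℤ) - p.1 = k), lev T (D.B n) p.1) ∪
        ⋃ b ∈ bad, lev T (D.B n) ((b : ℤ) - k) := by
    intro x hx
    obtain ⟨p, hp, h2, h3⟩ := mem_iUnion₂.1 hx
    have h4 : x ∈ lev T (D.B n) ((p.2 : ℤ) - k) := by
      rw [← pre_lev]
      exact h3
    have h5 := D.mem_all.1 (hF hp)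
    by_cases hb : p.2 ∈ bad
    · exact Or.inr (mem_iUnion₂.2 ⟨p.2, hb, h4⟩)
    · left
      simp only [hbad, Finset.mem_union, Finset.mem_range, Finset.mem_Ico, not_or] at hb
      obtain ⟨c, hc⟩ : ∃ c : ℕ, (p.2 : ℤ) - k = c := ⟨((p.2 : ℤ) - k).toNat, by omega⟩
      rw [hc] at h4
      have h6 : p.1 = c := by
        by_contra h7
        exact Set.disjoint_left.1 (D.disj n p.1 h5.1 c (by omega) h7) h2 h4
      exact mem_iUnion₂.2 ⟨p, Finset.mem_filter.2 ⟨hp, by omega⟩, h2⟩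
  rw [gr_real k (D.meas_U n F)]
  refine (measureReal_mono h1).trans ((measureReal_union_le _ _).trans (add_le_add ?_ ?_))
  · refine (measureReal_biUnion_finset_le _ _).trans (le_of_eq ?_)
    simp only [real_lev hT (D.meas n), Finset.sum_const, nsmul_eq_mul, N]
  · refine (measureReal_biUnion_finset_le _ _).trans ?_
    simp only [real_lev hT (D.meas n), Finset.sum_const, nsmul_eq_mul]
    exact mul_le_mul_of_nonneg_right (by exact_mod_cast hc) measureReal_nonneg

/-- First case: a diagonal that keeps a proportion of the mass. -/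
theorem case_a [StandardBorelSpace X] (hna : ∀ x, μ {x} = 0) (hT : MeasurePreserving T μ μ)
    (hm : IsStronglyMixing μ T) {ν : Measure (X × X)} [IsFiniteMeasure ν]
    (hν : MeasurePreserving (sq T) ν ν) {M : ℝ} (hM0 : 0 ≤ M) (hM : Marg μ ν M) {k : ℤ} {δ : ℝ}
    (hδ : 0 < δ) (hfr : ∃ᶠ n in atTop, δ * μ.real (D.B n) ≤ D.w ν n k) {E : Set (X × X)}
    (hE : MeasurableSet E) : δ * (gr μ T k).real E ≤ ν.real E := by
  refine le_of_forall_pos_le_add fun η hη => ?_
  obtain ⟨ε, hε, hεη⟩ : ∃ ε : ℝ, 0 < ε ∧ ε * (1 + 2 * δ) = η :=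
    ⟨η / (1 + 2 * δ), by positivity, by field_simp⟩
  have h1 := D.ap_all (by linarith) (hM.add (marg_gr hT k)) hE ε hε
  have h2 := D.base_small hna hT hm (c := ε / (k.natAbs + 1)) (by positivity)
  obtain ⟨n, h3, ⟨F, hF, h4⟩, h5⟩ := (hfr.and_eventually (h1.and h2)).exists
  rw [measureReal_add_apply] at h4
  have h6 : 0 ≤ ν.real (E ∆ D.U n F) := measureReal_nonneg
  have h7 : 0 ≤ (gr μ T k).real (E ∆ D.U n F) := measureReal_nonneg
  have h8 := real_le_symmDiff (gr μ T k) E (D.U n F)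
  have h9 := real_le_symmDiff' ν E (D.U n F)
  have h10 := D.gr_upper hT hF k
  have h11 := D.real_U_ge hν hF k
  have h12 : (k.natAbs : ℝ) * μ.real (D.B n) ≤ ε := by
    rw [le_div_iff₀ (by positivity)] at h5
    have : 0 ≤ μ.real (D.B n) := measureReal_nonneg
    nlinarith
  have h13 : (N F k : ℝ) * (δ * μ.real (D.B n)) ≤ N F k * D.w ν n k :=
    mul_le_mul_of_nonneg_left h3 (Nat.cast_nonneg _)
  have h14 : (gr μ T k).real E ≤ N F k * μ.real (D.B n) + 2 * ε := by linarith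
  have h15 := mul_le_mul_of_nonneg_left h14 hδ.le
  nlinarith

/-- Second case, rectangles. -/
theorem case_b_rect (hT : MeasurePreserving T μ μ)
    (hm : IsStronglyMixing μ T) {ν : Measure (X × X)} [IsFiniteMeasure ν]
    (hν : MeasurePreserving (sq T) ν ν) {M : ℝ} (hM0 : 0 ≤ M) (hM : Marg μ ν M)
    (hev : ∀ (k : ℤ) (δ : ℝ), 0 < δ → ∀ᶠ n in atTop, D.w ν n k ≤ δ * μ.real (D.B n))
    {A C : Set X} (hA : MeasurableSet A) (hC : MeasurableSet C) :
    ν.real (A ×ˢ C) ≤ 2 * M * (μ.real A * μ.real C) := by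
  refine le_of_forall_pos_le_add fun η hη => ?_
  obtain ⟨ε, hε, hεη⟩ : ∃ ε : ℝ, 0 < ε ∧ ε * (1 + 8 * M) = η :=
    ⟨η / (1 + 8 * M), by positivity, by field_simp⟩
  obtain ⟨K, hK⟩ := mix2 hT hm hA hC hε
  set δ : ℝ := ε / (2 * K + 1) with hδ
  have hδ0 : 0 < δ := by positivity
  have h1 : ∀ᶠ n in atTop, ∀ k ∈ Finset.Icc (-(K : ℤ)) K, D.w ν n k ≤ δ * μ.real (D.B n) :=
    (Finset.eventually_all _).2 fun k _ => hev k δ hδ0
  obtain ⟨n, h2, ⟨F, hF1, hF2⟩, ⟨G, hG1, hG2⟩, hβ⟩ :=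
    (h1.and ((D.appr A hA ε hε).and ((D.appr C hC ε hε).and (D.pos hT)))).exists
  have hF3 : μ.real (A ∆ D.V n F) ≤ ε := hF2
  have hG3 : μ.real (C ∆ D.V n G) ≤ ε := hG2
  have hFG : F ×ˢ G ⊆ D.all n := Finset.product_subset_product hF1 hG1
  set β := μ.real (D.B n) with hβdef
  set a := μ.real A * μ.real C + 3 * ε with ha
  have ha0 : 0 ≤ a := by positivity
  have h3 : ∀ k : ℤ, N (F ×ˢ G) k * D.w ν n k ≤
      (if k ∈ Finset.Icc (-(K : ℤ)) K then δ else 0) + a / β * D.w ν n k := by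
    intro k
    have h4 := D.gr_lower hT hFG k
    have hw := D.w_nonneg ν n k
    split_ifs with hk
    · have h5 : (N (F ×ˢ G) k : ℝ) * β ≤ 1 := h4.trans measureReal_le_one
      have h6 := mul_le_mul_of_nonneg_left (h2 k hk) (Nat.cast_nonneg (α := ℝ) (N (F ×ˢ G) k))
      have h7 : 0 ≤ a / β * D.w ν n k := by positivity
      nlinarith
    · have h5 : K ≤ k.natAbs := by
        rw [Finset.mem_Icc] at hk
        omega
      have h6 := (abs_le.1 (hK k h5)).2
      have h7 := real_le_symmDiff' (gr μ T k) (A ×ˢ C) (D.V n F ×ˢ D.V n G)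
      have h8 := real_prod_le (marg_gr hT k) hA hC (D.meas_V n F) (D.meas_V n G)
      rw [gr_prod k hA hC] at h7
      rw [D.U_prod] at h4
      have h9 : (N (F ×ˢ G) k : ℝ) ≤ a / β := by
        rw [le_div_iff₀ hβ]
        linarith
      rw [zero_add]
      exact mul_le_mul_of_nonneg_right h9 hw
  have h4 : ∑ k ∈ Finset.Ioo (-(D.h n : ℤ)) (D.h n),
      (if k ∈ Finset.Icc (-(K : ℤ)) K then δ else 0) ≤ ε := by
    rw [Finset.sum_ite_mem, Finset.sum_const, nsmul_eq_mul]
    have h5 : ((Finset.Ioo (-(D.h n : ℤ)) (D.h n) ∩ Finset.Icc (-(K : ℤ)) K).card : ℝ) ≤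
        2 * K + 1 := by
      have h6 := Finset.card_le_card (Finset.inter_subset_right
        (s₁ := Finset.Ioo (-(D.h n : ℤ)) (D.h n)) (s₂ := Finset.Icc (-(K : ℤ)) K))
      rw [Int.card_Icc] at h6
      have h7 : ((K : ℤ) + 1 - -(K : ℤ)).toNat = 2 * K + 1 := by omega
      rw [h7] at h6
      exact_mod_cast h6
    refine (mul_le_mul_of_nonneg_right h5 hδ0.le).trans (le_of_eq ?_)
    rw [hδ]
    field_simp
  have h5 : ν.real (D.U n (F ×ˢ G)) ≤ ε + a * (2 * M) := by
    rw [D.real_U_eq hν hFG]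
    refine (Finset.sum_le_sum fun k _ => h3 k).trans ?_
    rw [Finset.sum_add_distrib, ← Finset.mul_sum]
    refine add_le_add h4 ?_
    refine (mul_le_mul_of_nonneg_left (D.sum_w hν hM n) (by positivity)).trans (le_of_eq ?_)
    rw [← hβdef]
    field_simp
  have h6 := real_le_symmDiff ν (A ×ˢ C) (D.V n F ×ˢ D.V n G)
  have h7 := real_prod_le hM hA hC (D.meas_V n F) (D.meas_V n G)
  rw [D.U_prod] at h5
  have h8 := mul_le_mul_of_nonneg_left hF3 hM0
  have h9 := mul_le_mul_of_nonneg_left hG3 hM0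
  rw [ha] at h5
  nlinarith

include D in
theorem le_of_rect {ν : Measure (X × X)} [IsFiniteMeasure ν] {M : ℝ} (hM0 : 0 ≤ M)
    (hM : Marg μ ν M) {c : ℝ} (hc : 0 ≤ c)
    (h : ∀ A C, MeasurableSet A → MeasurableSet C → ν.real (A ×ˢ C) ≤ c * (μ.real A * μ.real C))
    {E : Set (X × X)} (hE : MeasurableSet E) : ν.real E ≤ c * (μ.prod μ).real E := by
  refine le_of_forall_pos_le_add fun η hη => ?_
  obtain ⟨ε, hε, hεη⟩ : ∃ ε : ℝ, 0 < ε ∧ ε * (1 + c) = η :=
    ⟨η / (1 + c), by positivity, by field_simp⟩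
  obtain ⟨n, F, hF, h4⟩ := (D.ap_all (by linarith) (hM.add marg_prod) hE ε hε).exists
  rw [measureReal_add_apply] at h4
  have h6 : 0 ≤ ν.real (E ∆ D.U n F) := measureReal_nonneg
  have h7 : 0 ≤ (μ.prod μ).real (E ∆ D.U n F) := measureReal_nonneg
  have h8 := real_le_symmDiff ν E (D.U n F)
  have h9 := real_le_symmDiff' (μ.prod μ) E (D.U n F)
  have h10 : ν.real (D.U n F) ≤ c * (μ.prod μ).real (D.U n F) := by
    rw [D.real_U _ hF, D.real_U _ hF, Finset.mul_sum]
    refine Finset.sum_le_sum fun p _ => ?_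
    refine (h _ _ (meas_lev (D.meas n) _) (meas_lev (D.meas n) _)).trans (le_of_eq ?_)
    rw [At, measureReal_prod_prod]
  have h11 : (μ.prod μ).real (D.U n F) ≤ (μ.prod μ).real E + ε := by linarith
  have h12 := mul_le_mul_of_nonneg_left h11 hc
  nlinarith

end Tow

/-- **The dichotomy.** An invariant finite measure on the square, with marginals bounded by a multiple
of `μ`, dominates a multiple of an off-diagonal measure or is absolutely continuous. -/
theorem dich [StandardBorelSpace X] [IsProbabilityMeasure μ] (hna : ∀ x, μ {x} = 0)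
    (hT : MeasurePreserving T μ μ) (hm : IsStronglyMixing μ T) (hr : IsRankOneMap μ T)
    {ν : Measure (X × X)} [IsFiniteMeasure ν] (hν : MeasurePreserving (sq T) ν ν) {M : ℝ}
    (hM0 : 0 ≤ M) (hM : Marg μ ν M) :
    (∃ (k : ℤ) (δ : ℝ), 0 < δ ∧ ∀ E, MeasurableSet E → δ * (gr μ T k).real E ≤ ν.real E) ∨
      ν ≪ μ.prod μ := by
  obtain ⟨D⟩ := exists_tow hr
  by_cases h : ∃ (k : ℤ) (δ : ℝ), 0 < δ ∧ ∃ᶠ n in atTop, δ * μ.real (D.B n) ≤ D.w ν n k
  · obtain ⟨k, δ, hδ, hfr⟩ := h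
    exact Or.inl ⟨k, δ, hδ, fun E hE => D.case_a hna hT hm hν hM0 hM hδ hfr hE⟩
  · right
    have hev : ∀ (k : ℤ) (δ : ℝ), 0 < δ → ∀ᶠ n in atTop, D.w ν n k ≤ δ * μ.real (D.B n) := by
      intro k δ hδ
      by_contra h1
      refine h ⟨k, δ, hδ, ?_⟩
      rw [not_eventually] at h1
      exact h1.mono fun n hn => (not_le.1 hn).le
    refine Measure.AbsolutelyContinuous.mk fun E hE h0 => ?_
    have h1 := D.le_of_rect hM0 hM (c := 2 * M) (by positivity)
      (fun A C hA hC => D.case_b_rect hT hm hν hM0 hM hev hA hC) hE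
    rw [measureReal_def (μ.prod μ), h0, ENNReal.toReal_zero, mul_zero] at h1
    exact (measureReal_eq_zero_iff).1 (le_antisymm h1 measureReal_nonneg)

end Vale.Agent.N130
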