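import Vale.Agent.N130.Dich

/-!
# P130: self-joinings, centraliser and roots of a mixing rank one map
-/

namespace Vale.Agent.N130

open MeasureTheory Filter Topology Set Vale.Agent.P130.H980
open scoped ENNReal symmDiff

variable {X : Type} [MeasurableSpace X] {μ : Measure X} {T : X ≃ᵐ X}

/-- The graph of `T ^ k`. -/
def G (T : X ≃ᵐ X) (k : ℤ) : Set (X × X) := {z | z.2 = zp T k z.1}

theorem meas_G [StandardBorelSpace X] (k : ℤ) : MeasurableSet (G T k) :=
  measurableSet_eq_fun measurable_snd ((meas_zp T k).comp measurable_fst)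

theorem pre_G (j k : ℤ) : zp (sq T) j ⁻¹' G T k = G T k := by
  ext z
  rw [mem_preimage, zp_sq]
  show zp T j z.2 = zp T k (zp T j z.1) ↔ z.2 = zp T k z.1
  rw [zp_comm T k j]
  exact (zp_inj T j).eq_iff

theorem mp_restrict {Y : Type} [MeasurableSpace Y] {ρ : Measure Y} {f : Y → Y}
    (hf : MeasurePreserving f ρ ρ) {s : Set Y} (hs : MeasurableSet s) (h : f ⁻¹' s = s) :
    MeasurePreserving f (ρ.restrict s) (ρ.restrict s) := by
  have := hf.restrict_preimage hs
  rwa [h] at this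

theorem Marg.restrict {ν : Measure (X × X)} [IsFiniteMeasure ν] {M : ℝ} (h : Marg μ ν M)
    (E : Set (X × X)) : Marg μ (ν.restrict E) M := by
  intro s hs
  have key : ∀ t, (ν.restrict E).real t ≤ ν.real t := fun t =>
    ENNReal.toReal_mono (by finiteness) (Measure.restrict_apply_le E t)
  exact ⟨(key _).trans (h s hs).1, (key _).trans (h s hs).2⟩

theorem Marg.null {ν : Measure (X × X)} [IsFiniteMeasure ν] {M : ℝ} (h : Marg μ ν M) {s : Set X}
    (hs : MeasurableSet s) (h0 : μ s = 0) : ν (s ×ˢ univ) = 0 := by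
  have h1 := (h s hs).1
  rw [measureReal_def μ, h0, ENNReal.toReal_zero, mul_zero] at h1
  exact (measureReal_eq_zero_iff).1 (le_antisymm h1 measureReal_nonneg)

variable [StandardBorelSpace X] [IsProbabilityMeasure μ]

theorem gr_G (k : ℤ) : (gr μ T k).real (G T k) = 1 := by
  rw [gr_real k (meas_G k)]
  have : (fun x => (x, zp T k x)) ⁻¹' G T k = univ := eq_univ_of_forall fun _ => rfl
  rw [this, probReal_univ]

/-- The part of an invariant measure on a graph. -/
theorem piece (hT : MeasurePreserving T μ μ) (hm : IsStronglyMixing μ T) {p : ℤ} (hp : p ≠ 0)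
    {ν : Measure (X × X)} [IsFiniteMeasure ν] (hν : MeasurePreserving (zp (sq T) p) ν ν) {M : ℝ}
    (hM : Marg μ ν M) (k : ℤ) : ∃ a : ℝ≥0∞, ν.restrict (G T k) = a • gr μ T k := by
  have h1 := mp_restrict hν (meas_G k) (pre_G p k)
  set ν' := ν.restrict (G T k) with hν'
  have h2 : MeasurePreserving (zp T p) (ν'.map Prod.fst) (ν'.map Prod.fst) := by
    refine ⟨meas_zp T p, ?_⟩
    rw [Measure.map_map (meas_zp T p) measurable_fst]
    have e : zp T p ∘ Prod.fst = Prod.fst ∘ zp (sq T) p := by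
      funext z
      simp only [Function.comp_apply, zp_sq]
    rw [e, ← Measure.map_map measurable_fst (meas_zp _ p), h1.map_eq]
  have h3 : ν'.map Prod.fst ≪ μ := by
    refine Measure.AbsolutelyContinuous.mk fun s hs h0 => ?_
    rw [Measure.map_apply measurable_fst hs, ← prod_univ]
    exact (hM.restrict _).null hs h0
  obtain ⟨a, ha⟩ := (erg hT hm hp).eq_smul_of_absolutelyContinuous h2 h3
  refine ⟨a, ?_⟩
  have h4 : ν' = (ν'.map Prod.fst).map fun x => (x, zp T k x) := by
    rw [Measure.map_map (meas_gr T k) measurable_fst]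
    have e : ((fun x => (x, zp T k x)) ∘ Prod.fst) =ᵐ[ν'] id := by
      refine (ae_restrict_iff' (meas_G k)).2 (Eventually.of_forall fun z hz => ?_)
      exact Prod.ext rfl (Eq.symm hz)
    rw [Measure.map_congr e, Measure.map_id]
  rw [h4, ha, Measure.map_smul]
  rfl

/-- The part of an invariant measure off the graphs. -/
theorem rest (hna : ∀ x, μ {x} = 0) (hT : MeasurePreserving T μ μ) (hm : IsStronglyMixing μ T)
    (hm2 : IsStronglyMixing (μ.prod μ) (sq T)) (hr : IsRankOneMap μ T) {p : ℕ} (hp : 1 ≤ p)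
    {ν : Measure (X × X)} [IsFiniteMeasure ν] (hν : MeasurePreserving (zp (sq T) p) ν ν) {M : ℝ}
    (hM0 : 0 ≤ M) (hM : Marg μ ν M) (h0 : ∀ k, ν (G T k) = 0) :
    ∃ c : ℝ≥0∞, ν = c • μ.prod μ := by
  set ρ : Measure (X × X) := ∑ i ∈ Finset.range p, ν.map (zp (sq T) i) with hρ
  have hap : ∀ E, MeasurableSet E → ρ E = ∑ i ∈ Finset.range p, ν (zp (sq T) i ⁻¹' E) := by
    intro E hE
    rw [hρ, Measure.finsetSum_apply]
    exact Finset.sum_congr rfl fun i _ => Measure.map_apply (meas_zp _ _) hE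
  have hre : ∀ E, MeasurableSet E → ρ.real E =
      ∑ i ∈ Finset.range p, ν.real (zp (sq T) i ⁻¹' E) := by
    intro E hE
    rw [measureReal_def, hap E hE, ENNReal.toReal_sum fun _ _ => by finiteness]
    rfl
  have h1 : MeasurePreserving (sq T) ρ ρ := by
    refine ⟨(sq T).measurable, Measure.ext fun E hE => ?_⟩
    rw [Measure.map_apply (sq T).measurable hE, hap _ ((sq T).measurable hE), hap E hE]
    have e1 := Finset.sum_range_succ (fun i : ℕ => ν (zp (sq T) i ⁻¹' E)) p
    have e2 := Finset.sum_range_succ' (fun i : ℕ => ν (zp (sq T) i ⁻¹' E)) p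
    have e3 : ν (zp (sq T) p ⁻¹' E) = ν (zp (sq T) (0 : ℕ) ⁻¹' E) := by
      rw [hν.measure_preimage hE.nullMeasurableSet, Nat.cast_zero, zp_zero]
      rfl
    rw [e1, e3] at e2
    rw [(ENNReal.add_left_inj (by finiteness)).1 e2]
    refine Finset.sum_congr rfl fun i _ => ?_
    congr 1
    ext z
    simp only [mem_preimage]
    rw [← zp_one, ← zp_add, Nat.cast_succ, add_comm]
  have h2 : Marg μ ρ (p * M) := by
    intro s hs
    rw [hre _ (hs.prod MeasurableSet.univ), hre _ (MeasurableSet.univ.prod hs), mul_assoc,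
      ← nsmul_eq_mul]
    have e : ∀ c : ℝ, p • c = ∑ _i ∈ Finset.range p, c := fun c => by simp
    rw [e]
    refine ⟨Finset.sum_le_sum fun i _ => ?_, Finset.sum_le_sum fun i _ => ?_⟩
    · have e1 : zp (sq T) i ⁻¹' (s ×ˢ univ) = (zp T i ⁻¹' s) ×ˢ univ := by
        ext z
        rw [mem_preimage, zp_sq]
        rfl
      rw [e1, ← real_pre (mp_zp hT i) hs]
      exact (hM _ (meas_zp T i hs)).1
    · have e1 : zp (sq T) i ⁻¹' (univ ×ˢ s) = univ ×ˢ (zp T i ⁻¹' s) := by
        ext z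
        rw [mem_preimage, zp_sq]
        rfl
      rw [e1, ← real_pre (mp_zp hT i) hs]
      exact (hM _ (meas_zp T i hs)).2
  rcases dich hna hT hm hr h1 (by positivity) h2 with ⟨k, δ, hδ, h3⟩ | h3
  · have h4 := h3 (G T k) (meas_G k)
    rw [gr_G, measureReal_def, hap _ (meas_G k)] at h4
    simp only [pre_G, h0, Finset.sum_const_zero, ENNReal.toReal_zero] at h4
    linarith
  · have h4 : ν ≪ ρ := by
      refine Measure.AbsolutelyContinuous.mk fun E hE h5 => ?_
      rw [hap E hE, Finset.sum_eq_zero_iff] at h5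
      have := h5 0 (Finset.mem_range.2 (by omega))
      rwa [Nat.cast_zero, zp_zero] at this
    exact (erg (mp_sq hT) hm2 (by omega)).eq_smul_of_absolutelyContinuous hν (h4.trans h3)

/-- **Minimal self-joinings.** -/
theorem msj (hna : ∀ x, μ {x} = 0) (hT : MeasurePreserving T μ μ) (hm : IsStronglyMixing μ T)
    (hm2 : IsStronglyMixing (μ.prod μ) (sq T)) (hr : IsRankOneMap μ T) {p : ℕ} (hp : 1 ≤ p)
    {ν : Measure (X × X)} [IsFiniteMeasure ν] (hν : MeasurePreserving (zp (sq T) p) ν ν) {M : ℝ}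
    (hM0 : 0 ≤ M) (hM : Marg μ ν M) : ∃ (c : ℝ≥0∞) (a : ℤ → ℝ≥0∞),
      ν = c • μ.prod μ + Measure.sum fun k => a k • gr μ T k := by
  have hU : MeasurableSet (⋃ k, G T k) := MeasurableSet.iUnion fun k => meas_G k
  choose a ha using piece hT hm (p := p) (by omega) hν hM
  have h1 : zp (sq T) p ⁻¹' (⋃ k, G T k)ᶜ = (⋃ k, G T k)ᶜ := by
    rw [preimage_compl, preimage_iUnion]
    simp only [pre_G]
  obtain ⟨c, hc⟩ := rest hna hT hm hm2 hr hp (mp_restrict hν hU.compl h1) hM0 (hM.restrict _)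
    (fun k => by
      rw [Measure.restrict_apply (meas_G k)]
      have : G T k ∩ (⋃ k, G T k)ᶜ = ∅ :=
        eq_empty_of_forall_notMem fun z hz => hz.2 (mem_iUnion.2 ⟨k, hz.1⟩)
      rw [this, measure_empty])
  refine ⟨c, a, ?_⟩
  have h2 : Pairwise (Function.onFun (AEDisjoint ν) (G T)) := by
    intro j k hjk
    have h3 : MeasurableSet {x | zp T (j - k) x = x} :=
      measurableSet_eq_fun (meas_zp T _) measurable_id
    refine measure_mono_null ?_ (hM.null h3 (aper hna hT hm (sub_ne_zero.2 hjk)))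
    rintro z ⟨hz1, hz2⟩
    refine ⟨?_, mem_univ _⟩
    show zp T (j - k) z.1 = z.1
    have h4 : zp T j z.1 = zp T k z.1 := (Eq.symm hz1).trans hz2
    rw [sub_eq_neg_add, zp_add, h4, zp_neg_zp]
  rw [← hc, ← funext ha, ← Measure.restrict_iUnion_ae h2 fun k => (meas_G k).nullMeasurableSet,
    add_comm, Measure.restrict_add_restrict_compl hU]

omit [StandardBorelSpace X] [IsProbabilityMeasure μ] in
theorem dec_apply {ν : Measure (X × X)} {c : ℝ≥0∞} {a : ℤ → ℝ≥0∞}
    (h : ν = c • μ.prod μ + Measure.sum fun k => a k • gr μ T k) {E : Set (X × X)}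
    (hE : MeasurableSet E) : ν E = c * μ.prod μ E + ∑' k, a k * gr μ T k E := by
  rw [h, Measure.add_apply, Measure.sum_apply _ hE]
  simp only [Measure.smul_apply, smul_eq_mul]

/-- **The centraliser.** -/
theorem central (hna : ∀ x, μ {x} = 0) (hT : MeasurePreserving T μ μ) (hm : IsStronglyMixing μ T)
    (hm2 : IsStronglyMixing (μ.prod μ) (sq T)) (hr : IsRankOneMap μ T) {p : ℕ} (hp : 1 ≤ p)
    {S : X → X} (hS : MeasurePreserving S μ μ) (hc : ∀ᵐ x ∂μ, S (zp T p x) = zp T p (S x)) :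
    ∃ k : ℤ, S =ᵐ[μ] zp T k := by
  have hg : Measurable fun x => (x, S x) := measurable_id.prodMk hS.measurable
  set ν : Measure (X × X) := μ.map fun x => (x, S x) with hν
  have : IsProbabilityMeasure ν := Measure.isProbabilityMeasure_map hg.aemeasurable
  have h1 : MeasurePreserving (zp (sq T) p) ν ν := by
    refine ⟨meas_zp _ _, ?_⟩
    rw [hν, Measure.map_map (meas_zp _ _) hg]
    have e : (zp (sq T) p ∘ fun x => (x, S x)) =ᵐ[μ] (fun x => (x, S x)) ∘ zp T p := by
      filter_upwards [hc] with x hx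
      simp only [Function.comp_apply, zp_sq]
      rw [hx]
    rw [Measure.map_congr e, ← Measure.map_map hg (meas_zp T p), (mp_zp hT p).map_eq]
  have h2 : Marg μ ν 1 := by
    intro s hs
    have e1 : (fun x => (x, S x)) ⁻¹' (s ×ˢ univ) = s := by
      ext x
      simp
    have e2 : (fun x => (x, S x)) ⁻¹' (univ ×ˢ s) = S ⁻¹' s := by
      ext x
      simp
    rw [measureReal_def, measureReal_def ν, hν, Measure.map_apply hg (hs.prod MeasurableSet.univ),
      Measure.map_apply hg (MeasurableSet.univ.prod hs), e1, e2,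
      hS.measure_preimage hs.nullMeasurableSet, one_mul]
    exact ⟨le_rfl, le_rfl⟩
  obtain ⟨c, a, h3⟩ := msj hna hT hm hm2 hr hp h1 zero_le_one h2
  have hΓ : MeasurableSet {z : X × X | z.2 = S z.1} :=
    measurableSet_eq_fun measurable_snd (hS.measurable.comp measurable_fst)
  have h4 : μ.prod μ {z : X × X | z.2 = S z.1} = 0 := by
    rw [Measure.measure_prod_null hΓ]
    exact Eventually.of_forall fun x => hna (S x)
  have h5 : ν {z : X × X | z.2 = S z.1}ᶜ = 0 := by
    rw [hν, Measure.map_apply hg hΓ.compl]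
    have : (fun x => (x, S x)) ⁻¹' {z : X × X | z.2 = S z.1}ᶜ = ∅ :=
      eq_empty_of_forall_notMem fun x hx => hx rfl
    rw [this, measure_empty]
  rw [dec_apply h3 hΓ.compl, add_eq_zero, (prob_compl_eq_one_iff hΓ).2 h4, mul_one,
    ENNReal.tsum_eq_zero] at h5
  have h6 := dec_apply h3 MeasurableSet.univ
  have h7 : ∃ k, a k ≠ 0 := by
    by_contra h
    push Not at h
    simp [h5.1, h] at h6
  obtain ⟨k, hk⟩ := h7
  have h8 := (mul_eq_zero.1 (h5.2 k)).resolve_left hk
  rw [gr_apply k hΓ.compl] at h8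
  refine ⟨k, ?_⟩
  have h9 : ∀ᵐ x ∂μ, zp T k x = S x := h8
  filter_upwards [h9] with x hx
  exact hx.symm

/-- **No roots.** -/
theorem no_root (hna : ∀ x, μ {x} = 0) (hT : MeasurePreserving T μ μ) (hm : IsStronglyMixing μ T)
    (hm2 : IsStronglyMixing (μ.prod μ) (sq T)) (hr : IsRankOneMap μ T) {S : X → X}
    (hS : MeasurePreserving S μ μ) {m : ℕ} (hm1 : 2 ≤ m) : ¬ S^[m] =ᵐ[μ] T := by
  intro h
  have hc : ∀ᵐ x ∂μ, S (zp T (1 : ℕ) x) = zp T (1 : ℕ) (S x) := by
    filter_upwards [h, hS.quasiMeasurePreserving.ae h] with x h1 h2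
    rw [Nat.cast_one, zp_one, zp_one, ← h1, ← h2, ← Function.iterate_succ_apply,
      Function.iterate_succ_apply']
  obtain ⟨k, hk⟩ := central hna hT hm hm2 hr le_rfl hS hc
  have h1 : ∀ j : ℕ, S^[j] =ᵐ[μ] zp T (k * j) := by
    intro j
    induction j with
    | zero =>
      rw [Nat.cast_zero, mul_zero, zp_zero]
      rfl
    | succ j ih =>
      filter_upwards [hk, hS.quasiMeasurePreserving.ae ih] with x h1 h2
      rw [Function.iterate_succ_apply, h2, h1, ← zp_add, Nat.cast_succ, mul_add, mul_one]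
  have h2 : k * m - 1 ≠ 0 := by
    intro h3
    have h4 : (m : ℤ) ∣ 1 := ⟨k, by linarith⟩
    have := Int.le_of_dvd one_pos h4
    omega
  have h3 : ∀ᵐ x ∂μ, zp T (k * m - 1) x = x := by
    filter_upwards [h, h1 m] with x h4 h5
    rw [sub_eq_neg_add, zp_add, ← h5, h4, ← zp_one, zp_neg_zp]
  have h4 : ∀ᵐ x ∂μ, ¬ zp T (k * m - 1) x = x := by
    have := aper hna hT hm h2
    rw [ae_iff]
    simpa using this
  obtain ⟨x, h5, h6⟩ := (h3.and h4).exists
  exact h6 h5

end Vale.Agent.N130
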