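import Vale.Agent.N130.Join

/-!
# P130: a mixing rank one map and its powers are prime
-/

namespace Vale.Agent.N130

open MeasureTheory ProbabilityTheory Filter Topology Set Vale.Agent.P130.H980
open scoped ENNReal symmDiff

section kernel

variable {X : Type} {m : MeasurableSpace X} [mX : MeasurableSpace X] {μ : Measure X}
  [IsProbabilityMeasure μ]

theorem exists_kernel [StandardBorelSpace X] (hm : m ≤ mX) : ∃ κ : Kernel X X, IsMarkovKernel κ ∧
    (∀ C, MeasurableSet C → Measurable[m] fun x => κ x C) ∧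
    ∀ D C, MeasurableSet[m] D → MeasurableSet C → ∫⁻ x in D, κ x C ∂μ = μ (D ∩ C) := by
  refine ⟨⟨fun x => condExpKernel μ m x, (condExpKernel μ m).measurable.mono hm le_rfl⟩,
    ⟨fun x => ?_⟩, fun C hC => measurable_condExpKernel hC, fun D C hD hC => ?_⟩
  · show IsProbabilityMeasure (condExpKernel μ m x)
    infer_instance
  · have h1 := congrArg (fun ρ => ρ (D ×ˢ C)) (compProd_trim_condExpKernel (μ := μ) hm)
    have hd : @Measurable X (X × X) mX (m.prod mX) Function.diag :=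
      Measurable.prodMk (measurable_id'' hm) measurable_id
    rw [Measure.compProd_apply_prod hD hC, setLIntegral_trim hm (measurable_condExpKernel hC) hD,
      @Measure.map_apply X (X × X) mX (m.prod mX) μ _ hd _ (@MeasurableSet.prod X X m mX D C hD hC)]
      at h1
    exact h1

theorem ae_eq_of_lintegral (hm : m ≤ mX) {f g : X → ℝ≥0∞} (hf : Measurable[m] f)
    (hg : Measurable[m] g) (h : ∀ D, MeasurableSet[m] D → ∫⁻ x in D, f x ∂μ = ∫⁻ x in D, g x ∂μ) :
    f =ᵐ[μ] g := by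
  refine ae_eq_of_ae_eq_trim (hm := hm) ?_
  refine ae_eq_of_forall_setLIntegral_eq_of_sigmaFinite (μ := μ.trim hm) hf hg fun D hD _ => ?_
  rw [setLIntegral_trim hm hf hD, setLIntegral_trim hm hg hD, h D hD]

variable [StandardBorelSpace X] {T : X ≃ᵐ X}

/-- Primeness, strictly invariant `σ`-algebras. -/
theorem prime_strict (hna : ∀ x, μ {x} = 0) (hT : MeasurePreserving T μ μ)
    (hmix : IsStronglyMixing μ T) (hm2 : IsStronglyMixing (μ.prod μ) (sq T))
    (hr : IsRankOneMap μ T) {p : ℕ} (hp : 1 ≤ p) (hm : m ≤ mX)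
    (h1 : ∀ A, MeasurableSet[m] A → MeasurableSet[m] (zp T p ⁻¹' A))
    (h2 : ∀ A, MeasurableSet[m] A → MeasurableSet[m] (zp T (-(p : ℤ)) ⁻¹' A)) :
    (∀ A, MeasurableSet[m] A → μ A = 0 ∨ μ Aᶜ = 0) ∨
      ∀ E, MeasurableSet E → ∃ A, MeasurableSet[m] A ∧ A =ᵐ[μ] E := by
  obtain ⟨κ, hκ, hκm, hκi⟩ := exists_kernel (μ := μ) hm
  have hτ := mp_zp hT p
  have hcv : ∀ (A : Set X) (f : X → ℝ≥0∞), MeasurableSet A → Measurable f →
      ∫⁻ x in zp T p ⁻¹' A, f (zp T p x) ∂μ = ∫⁻ x in A, f x ∂μ := fun A f hA hf =>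
    hτ.setLIntegral_comp_preimage hA hf
  have hequi : ∀ C, MeasurableSet C →
      (fun x => κ x (zp T p ⁻¹' C)) =ᵐ[μ] fun x => κ (zp T p x) C := by
    intro C hC
    have h3 : Measurable[m, m] (zp T p) := fun A hA => h1 A hA
    refine ae_eq_of_lintegral hm (hκm _ (meas_zp T p hC)) ((hκm C hC).comp h3) fun D hD => ?_
    have e : D = zp T p ⁻¹' (zp T (-(p : ℤ)) ⁻¹' D) := by
      ext x
      simp only [mem_preimage, zp_neg_zp]
    rw [hκi D _ hD (meas_zp T p hC)]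
    conv_rhs => rw [e]
    rw [hcv _ (fun x => κ x C) (hm _ (h2 D hD)) (κ.measurable_coe hC), hκi _ C (h2 D hD) hC,
      ← hτ.measure_preimage ((hm _ (h2 D hD)).inter hC).nullMeasurableSet, preimage_inter, ← e]
  set ν : Measure (X × X) := μ ⊗ₘ κ with hν
  have hrect : ∀ A C, MeasurableSet A → MeasurableSet C → ν (A ×ˢ C) = ∫⁻ x in A, κ x C ∂μ :=
    fun A C hA hC => Measure.compProd_apply_prod hA hC
  have h3 : MeasurePreserving (zp (sq T) p) ν ν := by
    refine ⟨meas_zp _ _, ?_⟩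
    have : IsProbabilityMeasure (ν.map (zp (sq T) p)) :=
      Measure.isProbabilityMeasure_map (meas_zp _ _).aemeasurable
    refine ext_of_generate_finite _ generateFrom_prod.symm isPiSystem_prod ?_ (by simp)
    rintro _ ⟨A, hA, C, hC, rfl⟩
    have e : zp (sq T) p ⁻¹' (A ×ˢ C) = (zp T p ⁻¹' A) ×ˢ (zp T p ⁻¹' C) := by
      ext z
      rw [mem_preimage, zp_sq]
      rfl
    show ν.map (zp (sq T) p) (A ×ˢ C) = ν (A ×ˢ C)
    rw [Measure.map_apply (meas_zp _ _) (MeasurableSet.prod hA hC), e,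
      hrect _ _ (meas_zp T p hA) (meas_zp T p hC), hrect A C hA hC,
      lintegral_congr_ae (ae_restrict_of_ae (hequi C hC)),
      hcv A (fun x => κ x C) hA (κ.measurable_coe hC)]
  have h4 : Marg μ ν 1 := by
    intro s hs
    rw [measureReal_def, measureReal_def ν, hrect _ _ hs MeasurableSet.univ,
      hrect _ _ MeasurableSet.univ hs, hκi univ s (@MeasurableSet.univ X m) hs]
    simp [measureReal_def]
  obtain ⟨c, a, h5⟩ := msj hna hT hmix hm2 hr hp h3 zero_le_one h4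
  have h6 : ∀ D, MeasurableSet[m] D →
      c * (μ D * μ Dᶜ) = 0 ∧ ∀ k, a k * μ (D ∩ zp T k ⁻¹' Dᶜ) = 0 := by
    intro D hD
    have hD' := hm D hD
    have h7 := dec_apply h5 (hD'.prod hD'.compl)
    rw [hrect _ _ hD' hD'.compl, hκi D _ hD hD'.compl, inter_compl_self, measure_empty,
      Measure.prod_prod] at h7
    have h8 := add_eq_zero.1 h7.symm
    refine ⟨h8.1, fun k => ?_⟩
    have h9 := ENNReal.tsum_eq_zero.1 h8.2 k
    rwa [gr_apply k (hD'.prod hD'.compl)] at h9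
  by_cases hc : c = 0
  swap
  · left
    intro A hA
    exact mul_eq_zero.1 ((mul_eq_zero.1 (h6 A hA).1).resolve_left hc)
  by_cases ha : ∃ k, k ≠ 0 ∧ a k ≠ 0
  · left
    obtain ⟨k, hk, hak⟩ := ha
    intro A hA
    exact triv hT hmix hk (hm A hA) ((mul_eq_zero.1 ((h6 A hA).2 k)).resolve_left hak)
  right
  have h7 : ∀ E, MeasurableSet E → ∀ᵐ x ∂μ, x ∈ E → κ x Eᶜ = 0 := by
    intro E hE
    have h8 := dec_apply h5 (hE.prod hE.compl)
    have h9 : ∑' k, a k * gr μ T k (E ×ˢ Eᶜ) = 0 := by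
      refine ENNReal.tsum_eq_zero.2 fun k => ?_
      by_cases hk : k = 0
      · have : (fun x => (x, zp T k x)) ⁻¹' (E ×ˢ Eᶜ) = ∅ := by
          refine eq_empty_of_forall_notMem fun x hx => hx.2 ?_
          rw [hk, zp_zero]
          exact hx.1
        rw [gr_apply k (hE.prod hE.compl), this, measure_empty, mul_zero]
      · have : a k = 0 := by
          by_contra h
          exact ha ⟨k, hk, h⟩
        rw [this, zero_mul]
    rw [h9, hc, zero_mul, add_zero, hrect _ _ hE hE.compl,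
      lintegral_eq_zero_iff (κ.measurable_coe hE.compl)] at h8
    exact (ae_restrict_iff' hE).1 h8
  intro E hE
  refine ⟨(fun x => κ x Eᶜ) ⁻¹' {0}, hκm _ hE.compl (measurableSet_singleton 0), ?_⟩
  rw [eventuallyEq_set]
  filter_upwards [h7 E hE, h7 Eᶜ hE.compl] with x h8 h9
  refine ⟨fun h => ?_, h8⟩
  by_contra h10
  have h11 := h9 h10
  rw [compl_compl] at h11
  have h12 : κ x Eᶜ = 0 := h
  have h13 := measure_add_measure_compl (μ := κ x) hE
  rw [h11, h12] at h13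
  simp at h13

/-- **Primeness.** -/
theorem prime (hna : ∀ x, μ {x} = 0) (hT : MeasurePreserving T μ μ)
    (hmix : IsStronglyMixing μ T) (hm2 : IsStronglyMixing (μ.prod μ) (sq T))
    (hr : IsRankOneMap μ T) {p : ℕ} (hp : 1 ≤ p) (hm : m ≤ mX)
    (h1 : ∀ A, MeasurableSet[m] A → ∃ A', MeasurableSet[m] A' ∧ A' =ᵐ[μ] zp T p ⁻¹' A)
    (h2 : ∀ A, MeasurableSet[m] A → ∃ A', MeasurableSet[m] A' ∧ A =ᵐ[μ] zp T p ⁻¹' A') :
    (∀ A, MeasurableSet[m] A → μ A = 0 ∨ μ Aᶜ = 0) ∨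
      ∀ E, MeasurableSet E → ∃ A, MeasurableSet[m] A ∧ A =ᵐ[μ] E := by
  have key := prime_strict (m := ⟨fun E => MeasurableSet[mX] E ∧ ∃ A, MeasurableSet[m] A ∧ A =ᵐ[μ] E,
    ⟨MeasurableSet.empty, ∅, @MeasurableSet.empty X m, EventuallyEq.rfl⟩,
    fun E ⟨hE, A, hA, h⟩ => ⟨hE.compl, Aᶜ, hA.compl, h.compl⟩,
    fun f hf => ⟨MeasurableSet.iUnion fun i => (hf i).1, ⋃ i, (hf i).2.choose,
      @MeasurableSet.iUnion X ℕ m _ _ fun i => (hf i).2.choose_spec.1,
      Filter.EventuallyEq.countable_iUnion fun i => (hf i).2.choose_spec.2⟩⟩)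
    hna hT hmix hm2 hr hp (fun E hE => hE.1) ?_ ?_
  · rcases key with key | key
    · exact Or.inl fun A hA => key A ⟨hm A hA, A, hA, EventuallyEq.rfl⟩
    · refine Or.inr fun E hE => ?_
      obtain ⟨A, ⟨-, A', hA', h3⟩, h4⟩ := key E hE
      exact ⟨A', hA', h3.trans h4⟩
  · rintro E ⟨hE, A, hA, h⟩
    obtain ⟨A', hA', h3⟩ := h1 A hA
    exact ⟨meas_zp T p hE, A', hA', h3.trans ((mp_zp hT p).quasiMeasurePreserving.preimage_ae_eq h)⟩
  · rintro E ⟨hE, A, hA, h⟩
    obtain ⟨A', hA', h3⟩ := h2 A hA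
    refine ⟨meas_zp T _ hE, A', hA', ?_⟩
    have h4 := (mp_zp hT (-(p : ℤ))).quasiMeasurePreserving.preimage_ae_eq (h3.symm.trans h)
    have e : zp T (-(p : ℤ)) ⁻¹' (zp T p ⁻¹' A') = A' := by
      ext x
      simp only [mem_preimage, zp_zp_neg]
    rwa [e] at h4

end kernel

end Vale.Agent.N130
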